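import Vale.Agent.P158.Chain.Final
import Vale.Agent.P158.Chain.Edges
import Vale.Agent.P158.Chain.Expect
import Vale.Agent.P158.Branch.OneEdge
import Vale.Agent.P158.Geom.GoodWhp

/-!
# P158: no bigeodesics in planar first-passage percolation
-/

open MeasureTheory SimpleGraph

namespace Vale.Agent.Results.P158.NoBigeodesics

open Vale.P158

/-- For every atomless law on `[0, ∞)` of the edge weights of the square lattice, almost surely
there is no bigeodesic. -/
theorem result (G : Measure ℝ) [IsProbabilityMeasure G] (hatom : ∀ x : ℝ, G {x} = 0)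
    (hnonneg : G (Set.Iio 0) = 0) :
    ∀ᵐ t ∂Measure.infinitePi (fun _ : lattice.edgeSet => G),
      ¬∃ v : ℤ → ℤ × ℤ, Function.Injective v ∧
        ∃ hv : ∀ i, lattice.Adj (v i) (v (i + 1)), ∀ i j : ℤ, i < j →
          ∑ k ∈ Finset.Ico i j, t ⟨s(v k, v (k + 1)), hv k⟩ =
            ⨅ p : lattice.Walk (v i) (v j),
              (p.darts.map fun d => t ⟨d.edge, d.edge_mem⟩).sum := by
  have : NullSingletonClass G := ⟨hatom⟩
  have hnn : ∀ᵐ s ∂G, 0 ≤ s := by
    filter_upwards [measure_eq_zero_iff_ae_notMem.1 hnonneg] with s hs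
    exact not_lt.1 hs
  have hB : Chain.BudgetBound G :=
    Chain.budgetBound G hnn (branchRare G hnn) (Chain.goodWhp G hnn)
  exact Chain.ae_edges_no_bigeodesic G (Chain.no_bigeodesic_of_budget G hnn hB)

end Vale.Agent.Results.P158.NoBigeodesics
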